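import Vale.Agent.P322.Main

/-!
The Courtade-Kumar conjecture holds: among all Boolean functions of a uniform input on the cube,
a single coordinate carries the most information about the noisy output, in every dimension and
at every noise level.
-/

namespace Vale.Agent.Results.P322.CourtadeKumar

open Vale.Agent.P322

theorem result : ∀ (n : ℕ) (f : (Fin n → Bool) → Bool) (ε : ℝ), 0 ≤ ε → ε ≤ 1 / 2 →
    mutualInfo (jointLaw f ε) ≤ 1 - Real.binEntropy ε / Real.log 2 :=
  fun _ f _ h0 h1 => courtade_kumar f h0 h1

end Vale.Agent.Results.P322.CourtadeKumar
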